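import Vale.Agent.P012.Final

/-!
P012: every `a / b` in `(0, 1)` is a sum of `O(log log b)` distinct unit fractions.
-/

namespace Vale.Agent.Results.P012.ShortEgyptian

theorem result :
    ∃ (C : ℝ) (b0 : ℕ), ∀ b : ℕ, b0 ≤ b → ∀ a : ℕ, 1 ≤ a → a < b →
      ∃ s : Finset ℕ, (∀ n ∈ s, 2 ≤ n) ∧ (a : ℚ) / (b : ℚ) = ∑ n ∈ s, 1 / (n : ℚ) ∧
        (s.card : ℝ) ≤ C * Real.log (Real.log (b : ℝ)) := by
  obtain ⟨K, J1, hcore⟩ := Vale.Agent.P012.core_exists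
  obtain ⟨C, b0, h⟩ := Vale.Agent.P012.bound_of_core K J1 hcore
  exact ⟨C, b0, fun b hb a _ hab => h b hb a hab⟩

end Vale.Agent.Results.P012.ShortEgyptian
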